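import Mathlib

/-!
# P226 (Gaussian propeller conjecture): the universal bound given by the level-one inequality

With `psi y = E (g - y)_+` for a standard Gaussian `g`: if `y * psi y <= m` for all `y > 0`, then
`|∫_A x dγ_d|² ≤ 4 m γ_d(A)` for every set `A` of `ℝ^d`, hence `M(d,k) ≤ 4 m` for all `d`, `k`.
Moreover `y * psi y <= 0.10125`, so `M(d,k) ≤ 0.405`.
-/

open MeasureTheory ProbabilityTheory Set Real
open scoped RealInnerProductSpace

namespace Vale.Agent.Results.P226.LevelOneSharp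


/-- the weight -/
noncomputable def w (x : ℝ) : ℝ := rexp (-(x ^ 2) / 2)

theorem w_pos (x : ℝ) : 0 < w x := Real.exp_pos _

theorem w_le_one (x : ℝ) : w x ≤ 1 := by
  unfold w
  rw [Real.exp_le_one_iff]
  have := sq_nonneg x
  linarith

theorem w_le_poly (x : ℝ) : w x ≤ 1 - x ^ 2 / 2 + x ^ 4 / 8 := by
  unfold w
  set t := x ^ 2 / 2 with ht
  have ht0 : 0 ≤ t := by positivity
  have h1 : 1 + t + t ^ 2 / 2 ≤ rexp t := Real.quadratic_le_exp_of_nonneg ht0
  have h2 : rexp (-(x ^ 2) / 2) = (rexp t)⁻¹ := by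
    rw [← Real.exp_neg]
    congr 1
    rw [ht]
    ring
  rw [h2]
  have hpos : 0 < 1 + t + t ^ 2 / 2 := by positivity
  have h3 : (rexp t)⁻¹ ≤ (1 + t + t ^ 2 / 2)⁻¹ := inv_anti₀ hpos h1
  refine h3.trans ?_
  rw [inv_le_iff_one_le_mul₀ hpos]
  have : 1 - x ^ 2 / 2 + x ^ 4 / 8 = 1 - t + t ^ 2 / 2 := by
    rw [ht]
    ring
  rw [this]
  nlinarith [sq_nonneg (t ^ 2)]

theorem mom (q : ℝ) (hq : -1 < q) :
    ∫ x in Ioi (0 : ℝ), x ^ q * rexp (-(1/2) * x ^ (2:ℝ)) =
      (1/2 : ℝ) ^ (-(q + 1) / 2) * (1 / 2) * Real.Gamma ((q + 1) / 2) :=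
  integral_rpow_mul_exp_neg_mul_rpow (by norm_num) hq (by norm_num)

theorem w_eq (x : ℝ) : rexp (-(1/2) * x ^ (2:ℝ)) = w x := by
  rw [w]
  congr 1
  rw [Real.rpow_two]
  ring

theorem I1 : ∫ x in Ioi (0 : ℝ), x * w x = 1 := by
  have h := mom 1 (by norm_num)
  have e : ∀ x ∈ Ioi (0:ℝ), x ^ (1:ℝ) * rexp (-(1/2) * x ^ (2:ℝ)) = x * w x := by
    intro x hx
    rw [Real.rpow_one, w_eq]
  rw [setIntegral_congr_fun measurableSet_Ioi e] at h
  rw [h]
  norm_num

theorem I0 : ∫ x in Ioi (0 : ℝ), w x = √(2 * π) / 2 := by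
  have h := integral_gaussian_Ioi (1/2)
  have e : ∀ x ∈ Ioi (0:ℝ), rexp (-(1/2) * x ^ 2) = w x := by
    intro x hx
    rw [w]
    congr 1
    ring
  rw [setIntegral_congr_fun measurableSet_Ioi e] at h
  rw [h]
  congr 2
  ring

theorem I2 : ∫ x in Ioi (0 : ℝ), x ^ 2 * w x = √(2 * π) / 2 := by
  have h := mom 2 (by norm_num)
  have e : ∀ x ∈ Ioi (0:ℝ), x ^ (2:ℝ) * rexp (-(1/2) * x ^ (2:ℝ)) = x ^ 2 * w x := by
    intro x hx
    rw [w_eq, Real.rpow_two]
  rw [setIntegral_congr_fun measurableSet_Ioi e] at h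
  rw [h]
  have g : Real.Gamma ((2 + 1) / 2) = √π / 2 := by
    have : ((2:ℝ) + 1) / 2 = 1 / 2 + 1 := by norm_num
    rw [this, Real.Gamma_add_one (by norm_num), Real.Gamma_one_half_eq]
    ring
  rw [g]
  have p : (1/2 : ℝ) ^ (-((2:ℝ) + 1) / 2) = 2 * √2 := by
    have : (-((2:ℝ) + 1) / 2) = -(1 + 1/2) := by norm_num
    rw [this, Real.rpow_neg (by norm_num), Real.rpow_add (by norm_num), Real.rpow_one,
      ← Real.sqrt_eq_rpow]
    rw [Real.sqrt_div (by norm_num), Real.sqrt_one]
    have h2 : √2 * √2 = 2 := Real.mul_self_sqrt (by norm_num)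
    have h2' : √2 ≠ 0 := by positivity
    field_simp
  rw [p, Real.sqrt_mul (by norm_num)]
  ring

theorem int0 : IntegrableOn w (Ioi 0) := by
  have h := integrableOn_rpow_mul_exp_neg_mul_sq (b := 1/2) (by norm_num) (s := 0) (by norm_num)
  refine h.congr_fun (fun x hx => ?_) measurableSet_Ioi
  simp only [Real.rpow_zero, one_mul, w]
  congr 1
  ring

theorem int1 : IntegrableOn (fun x => x * w x) (Ioi 0) := by
  have h := integrableOn_rpow_mul_exp_neg_mul_sq (b := 1/2) (by norm_num) (s := 1) (by norm_num)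
  refine h.congr_fun (fun x hx => ?_) measurableSet_Ioi
  simp only [Real.rpow_one, w]
  congr 2
  ring

theorem int2 : IntegrableOn (fun x => x ^ 2 * w x) (Ioi 0) := by
  have h := integrableOn_rpow_mul_exp_neg_mul_sq (b := 1/2) (by norm_num) (s := 2) (by norm_num)
  refine h.congr_fun (fun x hx => ?_) measurableSet_Ioi
  simp only [Real.rpow_two, w]
  congr 2
  ring

/-- unnormalised `E (g - y)_+` -/
noncomputable def G (y : ℝ) : ℝ := ∫ x in Ioi (0 : ℝ), max (x - y) 0 * w x

theorem measurable_w : Measurable w := by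
  unfold w
  fun_prop

theorem tri (y : ℝ) (hy : 0 ≤ y) :
    ∫ x in Ioc (0 : ℝ) y, (y - x) * (1 - x ^ 2 / 2 + x ^ 4 / 8) =
      y ^ 2 / 2 - y ^ 4 / 24 + y ^ 6 / 240 := by
  rw [← intervalIntegral.integral_of_le hy]
  have hd : ∀ x ∈ uIcc (0:ℝ) y, HasDerivAt
      (fun x : ℝ => y * (x - x ^ 3 / 6 + x ^ 5 / 40) - (x ^ 2 / 2 - x ^ 4 / 8 + x ^ 6 / 48))
      ((y - x) * (1 - x ^ 2 / 2 + x ^ 4 / 8)) x := by
    intro x _
    have h := ((((hasDerivAt_id' x).sub ((hasDerivAt_pow 3 x).div_const 6)).add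
      ((hasDerivAt_pow 5 x).div_const 40)).const_mul y).sub
      ((((hasDerivAt_pow 2 x).div_const 2).sub ((hasDerivAt_pow 4 x).div_const 8)).add
      ((hasDerivAt_pow 6 x).div_const 48))
    refine h.congr_deriv ?_
    norm_num
    ring
  rw [intervalIntegral.integral_eq_sub_of_hasDerivAt hd]
  · ring
  · apply Continuous.intervalIntegrable
    fun_prop

theorem intTri (y : ℝ) : IntegrableOn (fun x => max (y - x) 0 * w x) (Ioi 0) := by
  have h : IntegrableOn (fun x => |y| * w x + x * w x) (Ioi 0) := (int0.const_mul |y|).add int1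
  refine Integrable.mono' h (by
    apply Measurable.aestronglyMeasurable
    exact (((measurable_const.sub measurable_id).max measurable_const).mul measurable_w)) ?_
  rw [ae_restrict_iff' measurableSet_Ioi]
  refine Filter.Eventually.of_forall (fun x hx => ?_)
  have hx' : (0:ℝ) < x := hx
  have hw := w_pos x
  rw [Real.norm_eq_abs, abs_of_nonneg (mul_nonneg (le_max_right _ _) hw.le), ← add_mul]
  apply mul_le_mul_of_nonneg_right _ hw.le
  apply max_le
  · have := le_abs_self y
    linarith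
  · positivity

theorem G_le1 (y : ℝ) (hy : 0 ≤ y) :
    G y ≤ 1 - y * (√(2 * π) / 2) + (y ^ 2 / 2 - y ^ 4 / 24 + y ^ 6 / 240) := by
  unfold G
  have e : ∀ x ∈ Ioi (0:ℝ), max (x - y) 0 * w x = x * w x - y * w x + max (y - x) 0 * w x := by
    intro x _
    rcases le_total x y with h | h
    · rw [max_eq_right (by linarith), max_eq_left (by linarith)]
      ring
    · rw [max_eq_left (by linarith), max_eq_right (by linarith)]
      ring
  have hs : Integrable (fun x => x * w x - y * w x) (volume.restrict (Ioi 0)) :=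
    int1.sub (int0.const_mul y)
  rw [setIntegral_congr_fun measurableSet_Ioi e, integral_add hs (intTri y),
    integral_sub int1 (int0.const_mul y), integral_const_mul, I1, I0]
  have h3 : ∫ x in Ioi (0:ℝ), max (y - x) 0 * w x ≤ y ^ 2 / 2 - y ^ 4 / 24 + y ^ 6 / 240 := by
    rw [← tri y hy]
    have hsub : Ioc (0:ℝ) y ⊆ Ioi 0 := Ioc_subset_Ioi_self
    have e2 : ∫ x in Ioc (0 : ℝ) y, (y - x) * (1 - x ^ 2 / 2 + x ^ 4 / 8) =
        ∫ x in Ioi (0:ℝ), (Ioc (0:ℝ) y).indicator
          (fun x => (y - x) * (1 - x ^ 2 / 2 + x ^ 4 / 8)) x := by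
      rw [setIntegral_indicator measurableSet_Ioc, inter_eq_right.mpr hsub]
    rw [e2]
    apply setIntegral_mono_on (intTri y) _ measurableSet_Ioi
    · intro x hx
      have hx' : (0:ℝ) < x := hx
      by_cases hxy : x ≤ y
      · rw [indicator_of_mem (show x ∈ Ioc (0:ℝ) y from ⟨hx', hxy⟩), max_eq_left (by linarith)]
        exact mul_le_mul_of_nonneg_left (w_le_poly x) (by linarith)
      · rw [indicator_of_notMem (fun h => hxy h.2), max_eq_right (by linarith)]
        simp
    · rw [IntegrableOn, integrable_indicator_iff measurableSet_Ioc]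
      have hc : Continuous (fun x : ℝ => (y - x) * (1 - x ^ 2 / 2 + x ^ 4 / 8)) := by fun_prop
      have h0 : IntegrableOn (fun x : ℝ => (y - x) * (1 - x ^ 2 / 2 + x ^ 4 / 8)) (Ioc 0 y) volume :=
        (hc.integrableOn_Icc (a := 0) (b := y)).mono_set Ioc_subset_Icc_self
      exact h0.mono_measure Measure.restrict_le_self
  linarith

theorem G_le2 (y : ℝ) (hy : 1 / 2 < y) :
    G y ≤ (√(2 * π) / 2 - 1 + √(2 * π) / 8) / (4 * (y - 1 / 2)) := by
  unfold G
  have hpos : 0 < 4 * (y - 1 / 2) := by linarith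
  have hI : IntegrableOn (fun x => (x ^ 2 * w x - x * w x + (1 / 4) * w x) / (4 * (y - 1 / 2))) (Ioi 0) :=
    ((int2.sub int1).add (int0.const_mul (1 / 4))).div_const _
  have hle : ∫ x in Ioi (0:ℝ), max (x - y) 0 * w x ≤
      ∫ x in Ioi (0:ℝ), (x ^ 2 * w x - x * w x + (1 / 4) * w x) / (4 * (y - 1 / 2)) := by
    apply setIntegral_mono_on _ hI measurableSet_Ioi
    · intro x _
      have hw := w_pos x
      rw [le_div_iff₀ hpos]
      have : max (x - y) 0 * (4 * (y - 1 / 2)) ≤ (x - 1 / 2) ^ 2 := by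
        rcases le_total (x - y) 0 with h | h
        · rw [max_eq_right h, zero_mul]
          exact sq_nonneg _
        · rw [max_eq_left h]
          nlinarith [sq_nonneg (x - 1 / 2 - 2 * (y - 1 / 2))]
      nlinarith
    · have h : IntegrableOn (fun x => x * w x + |y| * w x) (Ioi 0) := int1.add (int0.const_mul |y|)
      refine Integrable.mono' h (by
        apply Measurable.aestronglyMeasurable
        exact (((measurable_id.sub measurable_const).max measurable_const).mul measurable_w)) ?_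
      rw [ae_restrict_iff' measurableSet_Ioi]
      refine Filter.Eventually.of_forall (fun x hx => ?_)
      have hx' : (0:ℝ) < x := hx
      have hw := w_pos x
      rw [Real.norm_eq_abs, abs_of_nonneg (mul_nonneg (le_max_right _ _) hw.le), ← add_mul]
      apply mul_le_mul_of_nonneg_right _ hw.le
      apply max_le
      · have := neg_abs_le y
        linarith
      · positivity
  refine hle.trans (le_of_eq ?_)
  have hs : Integrable (fun x => x ^ 2 * w x - x * w x) (volume.restrict (Ioi 0)) := int2.sub int1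
  rw [integral_div, integral_add hs (int0.const_mul (1 / 4)), integral_sub int2 int1,
    integral_const_mul, I0, I1, I2]
  ring

/-- `E (g - y)_+` for a standard Gaussian `g` -/
noncomputable def F (y : ℝ) : ℝ := ∫ x, max (x - y) 0 ∂(gaussianReal 0 1)

theorem F_eq (y : ℝ) (hy : 0 ≤ y) : F y = (√(2 * π))⁻¹ * G y := by
  unfold F G
  rw [integral_gaussianReal_eq_integral_smul (by norm_num), ← integral_const_mul]
  rw [← setIntegral_eq_integral_of_forall_compl_eq_zero (s := Ioi (0:ℝ))]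
  · apply setIntegral_congr_fun measurableSet_Ioi
    intro x _
    simp only [gaussianPDFReal, smul_eq_mul, w, NNReal.coe_one, mul_one, sub_zero]
    ring
  · intro x hx
    have hx' : x ≤ 0 := by simpa using hx
    rw [max_eq_right (by linarith)]
    simp

theorem kappa_bounds : (0.3989422 : ℝ) ≤ (√(2 * π))⁻¹ ∧ (√(2 * π))⁻¹ ≤ 0.3989424 := by
  have h1 := Real.pi_gt_d6
  have h2 := Real.pi_lt_d6
  have hs : 0 < √(2 * π) := by positivity
  have hsq : √(2 * π) ^ 2 = 2 * π := Real.sq_sqrt (by positivity)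
  constructor
  · rw [le_inv_comm₀ (by norm_num) hs]
    by_contra h
    rw [not_le] at h
    have : (0.3989422 : ℝ)⁻¹ ^ 2 < √(2 * π) ^ 2 := by
      apply pow_lt_pow_left₀ h (by norm_num) (by norm_num)
    rw [hsq] at this
    norm_num at this
    linarith
  · rw [inv_le_comm₀ hs (by norm_num)]
    by_contra h
    rw [not_le] at h
    have : √(2 * π) ^ 2 < (0.3989424 : ℝ)⁻¹ ^ 2 := by
      apply pow_lt_pow_left₀ h hs.le (by norm_num)
    rw [hsq] at this
    norm_num at this
    linarith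

theorem F_le1 (y : ℝ) (hy : 0 ≤ y) :
    F y ≤ (√(2 * π))⁻¹ - y / 2 + (√(2 * π))⁻¹ * (y ^ 2 / 2 - y ^ 4 / 24 + y ^ 6 / 240) := by
  have hs : 0 < √(2 * π) := by positivity
  rw [F_eq y hy]
  calc (√(2 * π))⁻¹ * G y
      ≤ (√(2 * π))⁻¹ * (1 - y * (√(2 * π) / 2) + (y ^ 2 / 2 - y ^ 4 / 24 + y ^ 6 / 240)) :=
        mul_le_mul_of_nonneg_left (G_le1 y hy) (by positivity)
    _ = _ := by
        field_simp

theorem F_le2 (y : ℝ) (hy : 1 / 2 < y) :
    F y ≤ (5 / 8 - (√(2 * π))⁻¹) / (4 * (y - 1 / 2)) := by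
  have hs : 0 < √(2 * π) := by positivity
  have hpos : 0 < 4 * (y - 1 / 2) := by linarith
  rw [F_eq y (by linarith)]
  calc (√(2 * π))⁻¹ * G y ≤ (√(2 * π))⁻¹ * ((√(2 * π) / 2 - 1 + √(2 * π) / 8) / (4 * (y - 1 / 2))) :=
        mul_le_mul_of_nonneg_left (G_le2 y hy) (by positivity)
    _ = _ := by
        field_simp
        ring

theorem poly_cert (y : ℝ) (hy : 0 ≤ y) (h : y ≤ 1.15) :
    y * (0.3989424 - y / 2 + 0.3989424 * (y ^ 2 / 2) - 0.3989422 * (y ^ 4 / 24)
      + 0.3989424 * (y ^ 6 / 240)) ≤ 0.10125 := by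
  have e : 0.10125 - y * (0.3989424 - y / 2 + 0.3989424 * (y ^ 2 / 2) - 0.3989422 * (y ^ 4 / 24)
      + 0.3989424 * (y ^ 6 / 240)) =
      (y - 0.612) ^ 2 * (6597460241203422623 / 24414062500000000000
        - 3553895701299189 / 19531250000000000 * y + 7352325422223 / 390625000000000 * y ^ 2
        + 69163233461 / 4687500000000 * y ^ 3 - 12716289 / 6250000000 * y ^ 4
        - 83113 / 50000000 * y ^ 5)
      + (-162615708189100857 / 6103515625000000000000) * (y - 0.612)
      + 475191689510115423 / 23841857910156250000000 := by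
    ring
  have h2 : 0 ≤ y ^ 2 := by positivity
  have h3 : 0 ≤ y ^ 3 := by positivity
  have h4 : y ^ 4 ≤ 1.15 ^ 4 := pow_le_pow_left₀ hy h 4
  have h5 : y ^ 5 ≤ 1.15 ^ 5 := pow_le_pow_left₀ hy h 5
  have hQ : 0 ≤ 6597460241203422623 / 24414062500000000000
        - 3553895701299189 / 19531250000000000 * y + 7352325422223 / 390625000000000 * y ^ 2
        + 69163233461 / 4687500000000 * y ^ 3 - 12716289 / 6250000000 * y ^ 4
        - 83113 / 50000000 * y ^ 5 := by
    norm_num at h4 h5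
    linarith
  have hR : 0 ≤ (-162615708189100857 / 6103515625000000000000) * (y - 0.612)
      + 475191689510115423 / 23841857910156250000000 := by
    linarith
  have hm := mul_nonneg (sq_nonneg (y - 0.612)) hQ
  linarith

theorem key (y : ℝ) (hy : 0 < y) : y * F y ≤ 0.10125 := by
  obtain ⟨k1, k2⟩ := kappa_bounds
  set κ := (√(2 * π))⁻¹ with hκ
  rcases le_total y 1.15 with h | h
  · have h1 := F_le1 y hy.le
    have h2 : y * F y ≤ y * (κ - y / 2 + κ * (y ^ 2 / 2 - y ^ 4 / 24 + y ^ 6 / 240)) :=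
      mul_le_mul_of_nonneg_left h1 hy.le
    have h3 : y * (κ - y / 2 + κ * (y ^ 2 / 2 - y ^ 4 / 24 + y ^ 6 / 240)) ≤
        y * (0.3989424 - y / 2 + 0.3989424 * (y ^ 2 / 2) - 0.3989422 * (y ^ 4 / 24)
          + 0.3989424 * (y ^ 6 / 240)) := by
      apply mul_le_mul_of_nonneg_left _ hy.le
      have a2 : κ * (y ^ 2 / 2) ≤ 0.3989424 * (y ^ 2 / 2) :=
        mul_le_mul_of_nonneg_right k2 (by positivity)
      have a4 : 0.3989422 * (y ^ 4 / 24) ≤ κ * (y ^ 4 / 24) :=
        mul_le_mul_of_nonneg_right k1 (by positivity)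
      have a6 : κ * (y ^ 6 / 240) ≤ 0.3989424 * (y ^ 6 / 240) :=
        mul_le_mul_of_nonneg_right k2 (by positivity)
      linarith
    have h4 := poly_cert y hy.le h
    linarith
  · have h1 := F_le2 y (by linarith)
    have hpos : 0 < 4 * (y - 1 / 2) := by linarith
    have h2 : F y ≤ (5 / 8 - 0.3989422) / (4 * (y - 1 / 2)) := by
      refine h1.trans ?_
      apply div_le_div_of_nonneg_right _ hpos.le
      linarith
    have h3 : y * F y ≤ y * ((5 / 8 - 0.3989422) / (4 * (y - 1 / 2))) :=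
      mul_le_mul_of_nonneg_left h2 hy.le
    refine h3.trans ?_
    rw [← mul_div_assoc, div_le_iff₀ hpos]
    linarith


variable {E : Type*} [NormedAddCommGroup E] [InnerProductSpace ℝ E] [FiniteDimensional ℝ E]
  [MeasurableSpace E] [BorelSpace E]

theorem map_unit (u : E) (hu : ‖u‖ = 1) :
    (stdGaussian E).map (fun x => ⟪u, x⟫) = gaussianReal 0 1 := by
  have h := IsGaussian.map_eq_gaussianReal (μ := stdGaussian E) (innerSL ℝ u)
  rw [integral_strongDual_stdGaussian, variance_dual_stdGaussian, innerSL_apply_norm, hu] at h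
  simpa using h

theorem integral_pos_part (u : E) (hu : ‖u‖ = 1) (t : ℝ) :
    ∫ x, max (⟪u, x⟫ - t) 0 ∂(stdGaussian E) = F t := by
  unfold F
  rw [← map_unit u hu, integral_map (by fun_prop) (by fun_prop)]

theorem integrable_pos_part (u : E) (t : ℝ) :
    Integrable (fun x => max (⟪u, x⟫ - t) 0) (stdGaussian E) := by
  have h1 : Integrable (fun x => ⟪u, x⟫) (stdGaussian E) := by
    have := IsGaussian.integrable_dual (stdGaussian E) (innerSL ℝ u)
    simpa using this
  have h2 : Integrable (fun x => ⟪u, x⟫ - t) (stdGaussian E) := h1.sub (integrable_const t)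
  exact h2.pos_part

theorem single (m : ℝ) (hm0 : 0 < m) (hm : ∀ y : ℝ, 0 < y → y * F y ≤ m) (A : Set E) :
    ‖∫ x in A, x ∂(stdGaussian E)‖ ^ 2 ≤ 4 * m * (stdGaussian E).real A := by
  set γ := stdGaussian E with hγ
  have hid : Integrable (fun x : E => x) γ := IsGaussian.integrable_id
  set z := ∫ x in A, x ∂γ with hz
  by_cases hz0 : z = 0
  · rw [hz0]
    simp only [norm_zero, ne_eq, OfNat.ofNat_ne_zero, not_false_eq_true, zero_pow]
    positivity
  have hl : 0 < ‖z‖ := norm_pos_iff.mpr hz0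
  set u := (‖z‖)⁻¹ • z with hu
  have hu1 : ‖u‖ = 1 := by
    rw [hu, norm_smul, norm_inv, norm_norm, inv_mul_cancel₀ hl.ne']
  have h1 : ‖z‖ = ∫ x in A, ⟪u, x⟫ ∂γ := by
    rw [integral_inner hid.integrableOn u, ← hz, hu, real_inner_smul_left,
      real_inner_self_eq_norm_sq]
    field_simp
  have hint : Integrable (fun x => ⟪u, x⟫) γ := by
    have := IsGaussian.integrable_dual γ (innerSL ℝ u)
    simpa using this
  have hbound : ∀ t : ℝ, ‖z‖ ≤ t * γ.real A + F t := by
    intro t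
    calc ‖z‖ = ∫ x in A, ⟪u, x⟫ ∂γ := h1
      _ ≤ ∫ x in A, (t + max (⟪u, x⟫ - t) 0) ∂γ := by
          apply integral_mono hint.integrableOn
          · exact ((integrable_const _).add (integrable_pos_part u t)).integrableOn
          · intro x
            simp only
            have := le_max_left (⟪u, x⟫ - t) 0
            linarith
      _ = t * γ.real A + ∫ x in A, max (⟪u, x⟫ - t) 0 ∂γ := by
          rw [integral_add (integrable_const _) (integrable_pos_part u t).integrableOn]
          simp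
          ring
      _ ≤ t * γ.real A + ∫ x, max (⟪u, x⟫ - t) 0 ∂γ := by
          have := setIntegral_le_integral (s := A) (integrable_pos_part u t)
            (Filter.Eventually.of_forall fun x => le_max_right _ _)
          linarith
      _ = t * γ.real A + F t := by rw [integral_pos_part u hu1]
  have ht : 0 < 2 * m / ‖z‖ := by positivity
  have h2 := hbound (2 * m / ‖z‖)
  have h3 := hm (2 * m / ‖z‖) ht
  have h4 : F (2 * m / ‖z‖) ≤ ‖z‖ / 2 := by
    rw [div_mul_eq_mul_div, div_le_iff₀ hl] at h3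
    nlinarith
  have h5 : ‖z‖ / 2 ≤ 2 * m / ‖z‖ * γ.real A := by linarith
  rw [div_mul_eq_mul_div, le_div_iff₀ hl] at h5
  nlinarith

theorem main (m : ℝ) (hm0 : 0 < m) (hm : ∀ y : ℝ, 0 < y → y * F y ≤ m)
    (k : ℕ) (A : Fin k → Set E) (hA : ∀ i, MeasurableSet (A i))
    (hdisj : Pairwise (fun i j => Disjoint (A i) (A j))) :
    ∑ i, ‖∫ x in A i, x ∂(stdGaussian E)‖ ^ 2 ≤ 4 * m := by
  set γ := stdGaussian E with hγ
  have hsum : ∑ i, γ.real (A i) ≤ 1 := by
    rw [← measureReal_biUnion_finset (fun i _ j _ hij => hdisj hij) (fun i _ => hA i)]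
    exact measureReal_le_one
  have := Finset.sum_le_sum (fun i (_ : i ∈ Finset.univ) => single m hm0 hm (A i))
  rw [← Finset.mul_sum] at this
  nlinarith


/-- (1) If `m > 0` bounds `y * E (g - y)_+` for all `y > 0` (`g` a standard real Gaussian), then
for all `d`, `k` and every family of `k` pairwise disjoint measurable subsets of `ℝ^d` (in
particular every measurable partition) the sum of the squared norms of the Gaussian first moments
is at most `4 m`.  (2) `m = 0.10125` is such a bound.  (3) For every `d` and every subset `A` of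
`ℝ^d` the squared norm of the Gaussian first moment of `A` is at most `0.405 γ_d(A)`.  (4) Hence
the sum in (1) is at most `0.405` for all `d`, `k`. -/
theorem result :
    (∀ m : ℝ, 0 < m →
      (∀ y : ℝ, 0 < y → y * ∫ x, max (x - y) 0 ∂(gaussianReal 0 1) ≤ m) →
      ∀ (d k : ℕ) (A : Fin k → Set (EuclideanSpace ℝ (Fin d))),
      (∀ i, MeasurableSet (A i)) → Pairwise (fun i j => Disjoint (A i) (A j)) →
      ∑ i, ‖∫ x in A i, x ∂(stdGaussian (EuclideanSpace ℝ (Fin d)))‖ ^ 2 ≤ 4 * m) ∧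
    (∀ y : ℝ, 0 < y → y * ∫ x, max (x - y) 0 ∂(gaussianReal 0 1) ≤ 0.10125) ∧
    (∀ (d : ℕ) (A : Set (EuclideanSpace ℝ (Fin d))),
      ‖∫ x in A, x ∂(stdGaussian (EuclideanSpace ℝ (Fin d)))‖ ^ 2 ≤
        0.405 * (stdGaussian (EuclideanSpace ℝ (Fin d))).real A) ∧
    (∀ (d k : ℕ) (A : Fin k → Set (EuclideanSpace ℝ (Fin d))),
      (∀ i, MeasurableSet (A i)) → Pairwise (fun i j => Disjoint (A i) (A j)) →
      ∑ i, ‖∫ x in A i, x ∂(stdGaussian (EuclideanSpace ℝ (Fin d)))‖ ^ 2 ≤ 0.405) := by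
  refine ⟨fun m hm0 hm _ k A hA hdisj => main m hm0 hm k A hA hdisj, key, fun _ A => ?_,
    fun _ k A hA hdisj => ?_⟩
  · have h := single 0.10125 (by norm_num) key A
    norm_num at h ⊢
    linarith
  · have h := main 0.10125 (by norm_num) key k A hA hdisj
    norm_num at h ⊢
    linarith

end Vale.Agent.Results.P226.LevelOneSharp
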