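import Mathlib
import Vale.Agent.Lib.P226.LevelOne
import Vale.Agent.Results.P226.LevelOneSharp

/-!
# P226 (Gaussian propeller conjecture): per-cell bounds, the universal bound and small cells

For every set `A` of `ℝ^d` and every `t ≥ 0`: `|z(A)| ≤ t γ_d(A) + E (g - t)_+`.  Consequences:
`|z(A)|² ≤ 0.405 γ_d(A)` always and `|z(A)|² ≤ 0.358 γ_d(A)` when `γ_d(A) ≤ 0.1438`.  Hence
`M(d,k) ≤ 0.405`, and the propeller inequality holds for all partitions whose cells have
measure at most `0.1438` (in particular at most `1/7`).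
-/

open MeasureTheory ProbabilityTheory Set Real
open scoped RealInnerProductSpace

namespace Vale.Agent.Results.P226.A_Combined

open Vale.Agent.Results.P226.LevelOneSharp

variable {E : Type*} [NormedAddCommGroup E] [InnerProductSpace ℝ E] [FiniteDimensional ℝ E]
  [MeasurableSpace E] [BorelSpace E]

theorem F_nonneg (t : ℝ) : 0 ≤ F t := by
  unfold F
  exact integral_nonneg fun x => le_max_right _ _

/-- the supporting-line form of the half-space comparison -/
theorem tangent (A : Set E) (t : ℝ) (ht : 0 ≤ t) :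
    ‖∫ x in A, x ∂(stdGaussian E)‖ ≤ t * (stdGaussian E).real A + F t := by
  set γ := stdGaussian E with hγ
  have hid : Integrable (fun x : E => x) γ := IsGaussian.integrable_id
  set z := ∫ x in A, x ∂γ with hz
  by_cases hz0 : z = 0
  · rw [hz0, norm_zero]
    have h1 : 0 ≤ γ.real A := measureReal_nonneg
    have h2 := F_nonneg t
    positivity
  have hl : 0 < ‖z‖ := norm_pos_iff.mpr hz0
  set u := (‖z‖)⁻¹ • z with hu
  have hu1 : ‖u‖ = 1 := by
    rw [hu, norm_smul, norm_inv, norm_norm, inv_mul_cancel₀ hl.ne']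
  have h1 : ‖z‖ = ∫ x in A, ⟪u, x⟫ ∂γ := by
    rw [integral_inner hid.integrableOn u, ← hz, hu, real_inner_smul_left,
      real_inner_self_eq_norm_sq]
    field_simp
  have hint : Integrable (fun x => ⟪u, x⟫) γ := by
    have := IsGaussian.integrable_dual γ (innerSL ℝ u)
    simpa using this
  calc ‖z‖ = ∫ x in A, ⟪u, x⟫ ∂γ := h1
    _ ≤ ∫ x in A, (t + max (⟪u, x⟫ - t) 0) ∂γ := by
        apply integral_mono hint.integrableOn
        · exact ((integrable_const _).add (integrable_pos_part u t)).integrableOn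
        · intro x
          simp only
          have := le_max_left (⟪u, x⟫ - t) 0
          linarith
    _ = t * γ.real A + ∫ x in A, max (⟪u, x⟫ - t) 0 ∂γ := by
        rw [integral_add (integrable_const _) (integrable_pos_part u t).integrableOn]
        simp
        ring
    _ ≤ t * γ.real A + ∫ x, max (⟪u, x⟫ - t) 0 ∂γ := by
        have := setIntegral_le_integral (s := A) (integrable_pos_part u t)
          (Filter.Eventually.of_forall fun x => le_max_right _ _)
        linarith
    _ = t * γ.real A + F t := by rw [integral_pos_part u hu1]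

theorem F_val : F 1.06 ≤ 0.07444055 := by
  obtain ⟨k1, k2⟩ := kappa_bounds
  have h1 := F_le1 1.06 (by norm_num)
  set κ := (√(2 * π))⁻¹ with hκ
  norm_num at h1 ⊢
  linarith

theorem small_cell (A : Set E) (hA : (stdGaussian E).real A ≤ 0.1438) :
    ‖∫ x in A, x ∂(stdGaussian E)‖ ^ 2 ≤ 0.358 * (stdGaussian E).real A := by
  set m := (stdGaussian E).real A with hm
  have hm0 : 0 ≤ m := measureReal_nonneg
  rcases le_total m (1 / 16) with h | h
  · have h1 := (Vale.Agent.Lib.P226.norm_sq_moment_le A).trans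
      (Vale.Agent.Lib.P226.small_bound _ measureReal_nonneg h)
    have h2 := Real.log_two_lt_d9
    have h3 : Real.log 2 / 2 * m ≤ 0.358 * m :=
      mul_le_mul_of_nonneg_right (by linarith) hm0
    exact h1.trans h3
  · have h1 := tangent A 1.06 (by norm_num)
    have h2 := F_val
    have h3 : ‖∫ x in A, x ∂(stdGaussian E)‖ ≤ 1.06 * m + 0.07444055 := by linarith
    have h4 : ‖∫ x in A, x ∂(stdGaussian E)‖ ^ 2 ≤ (1.06 * m + 0.07444055) ^ 2 :=
      pow_le_pow_left₀ (norm_nonneg _) h3 2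
    have h5 : 0 ≤ (m - 1 / 16) * (0.1438 - m) :=
      mul_nonneg (by linarith) (by linarith)
    nlinarith

theorem const_lt : (0.358 : ℝ) < 9 / (8 * π) := by
  have h2 := Real.pi_lt_d4
  have h3 := Real.pi_pos
  rw [lt_div_iff₀ (by positivity)]
  linarith

/-- `γ_d` is the standard Gaussian measure of `ℝ^d`, `z(A) = ∫_A x dγ_d` and `g` is a standard
real Gaussian.  (1) `|z(A)| ≤ t γ_d(A) + E (g - t)_+` for every set `A` and every `t ≥ 0`.
(2) `|z(A)|² ≤ 0.405 γ_d(A)` for every set `A`.  (3) `|z(A)|² ≤ 0.358 γ_d(A)` for every set `A`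
with `γ_d(A) ≤ 0.1438`.  (4) For all `d`, `k` and all pairwise disjoint measurable
`A_1, ..., A_k` (in particular all measurable partitions) the sum of the `|z(A_i)|²` is at most
`0.405`, (5) and at most `0.358` if every `A_i` has measure at most `0.1438`.
(6) `0.358 < 9 / (8 π)` and `1 / 7 ≤ 0.1438`. -/
theorem result :
    (∀ (d : ℕ) (A : Set (EuclideanSpace ℝ (Fin d))) (t : ℝ), 0 ≤ t →
      ‖∫ x in A, x ∂(stdGaussian (EuclideanSpace ℝ (Fin d)))‖ ≤
        t * (stdGaussian (EuclideanSpace ℝ (Fin d))).real A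
          + ∫ x, max (x - t) 0 ∂(gaussianReal 0 1)) ∧
    (∀ (d : ℕ) (A : Set (EuclideanSpace ℝ (Fin d))),
      ‖∫ x in A, x ∂(stdGaussian (EuclideanSpace ℝ (Fin d)))‖ ^ 2 ≤
        0.405 * (stdGaussian (EuclideanSpace ℝ (Fin d))).real A) ∧
    (∀ (d : ℕ) (A : Set (EuclideanSpace ℝ (Fin d))),
      (stdGaussian (EuclideanSpace ℝ (Fin d))).real A ≤ 0.1438 →
      ‖∫ x in A, x ∂(stdGaussian (EuclideanSpace ℝ (Fin d)))‖ ^ 2 ≤
        0.358 * (stdGaussian (EuclideanSpace ℝ (Fin d))).real A) ∧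
    (∀ (d k : ℕ) (A : Fin k → Set (EuclideanSpace ℝ (Fin d))),
      (∀ i, MeasurableSet (A i)) → Pairwise (fun i j => Disjoint (A i) (A j)) →
      ∑ i, ‖∫ x in A i, x ∂(stdGaussian (EuclideanSpace ℝ (Fin d)))‖ ^ 2 ≤ 0.405) ∧
    (∀ (d k : ℕ) (A : Fin k → Set (EuclideanSpace ℝ (Fin d))),
      (∀ i, MeasurableSet (A i)) → Pairwise (fun i j => Disjoint (A i) (A j)) →
      (∀ i, (stdGaussian (EuclideanSpace ℝ (Fin d))).real (A i) ≤ 0.1438) →
      ∑ i, ‖∫ x in A i, x ∂(stdGaussian (EuclideanSpace ℝ (Fin d)))‖ ^ 2 ≤ 0.358) ∧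
    ((0.358 : ℝ) < 9 / (8 * π) ∧ (1 / 7 : ℝ) ≤ 0.1438) := by
  refine ⟨fun _ A t ht => tangent A t ht, LevelOneSharp.result.2.2.1, fun _ A hA => small_cell A hA,
    LevelOneSharp.result.2.2.2, fun d k A hA hdisj hs => ?_, const_lt, by norm_num⟩
  set γ := stdGaussian (EuclideanSpace ℝ (Fin d)) with hγ
  have hsum : ∑ i, γ.real (A i) ≤ 1 := by
    rw [← measureReal_biUnion_finset (fun i _ j _ hij => hdisj hij) (fun i _ => hA i)]
    exact measureReal_le_one
  have := Finset.sum_le_sum (fun i (_ : i ∈ Finset.univ) => small_cell (A i) (hs i))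
  rw [← Finset.mul_sum] at this
  linarith

end Vale.Agent.Results.P226.A_Combined
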