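import Vale.Agent.Results.P226.LevelOneSharp

/-! # P226: the shape of a possible counterexample to the propeller conjecture

Per-cell inequalities `|z(A)|^2 ≤ (9/(8π)) γ(A)` for `γ(A) ≤ 1/7` and for `γ(A) ≥ 4/9`, and the
consequences for partitions. -/

open MeasureTheory ProbabilityTheory Set Real
open scoped RealInnerProductSpace

namespace Vale.Agent.Results.P226.A_Shape

open Vale.Agent.Results.P226.LevelOneSharp

variable {E : Type*} [NormedAddCommGroup E] [InnerProductSpace ℝ E] [FiniteDimensional ℝ E]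
  [MeasurableSpace E] [BorelSpace E]

theorem F_nonneg (t : ℝ) : 0 ≤ F t := by
  unfold F
  exact integral_nonneg (fun x => le_max_right _ _)

/-- the half-space (tangent line) bound: `|z(A)| ≤ t γ(A) + E (g - t)_+` -/
theorem line_bound (A : Set E) (t : ℝ) (ht : 0 ≤ t) :
    ‖∫ x in A, x ∂(stdGaussian E)‖ ≤ t * (stdGaussian E).real A + F t := by
  set γ := stdGaussian E with hγ
  have hid : Integrable (fun x : E => x) γ := IsGaussian.integrable_id
  set z := ∫ x in A, x ∂γ with hz
  by_cases hz0 : z = 0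
  · rw [hz0, norm_zero]
    have h1 := F_nonneg t
    have h2 : 0 ≤ γ.real A := measureReal_nonneg
    positivity
  have hl : 0 < ‖z‖ := norm_pos_iff.mpr hz0
  set u := (‖z‖)⁻¹ • z with hu
  have hu1 : ‖u‖ = 1 := by
    rw [hu, norm_smul, norm_inv, norm_norm, inv_mul_cancel₀ hl.ne']
  have h1 : ‖z‖ = ∫ x in A, ⟪u, x⟫ ∂γ := by
    rw [integral_inner hid.integrableOn u, ← hz, hu, real_inner_smul_left,
      real_inner_self_eq_norm_sq]
    field_simp
  have hint : Integrable (fun x => ⟪u, x⟫) γ := by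
    have := IsGaussian.integrable_dual γ (innerSL ℝ u)
    simpa using this
  calc ‖z‖ = ∫ x in A, ⟪u, x⟫ ∂γ := h1
    _ ≤ ∫ x in A, (t + max (⟪u, x⟫ - t) 0) ∂γ := by
        apply integral_mono hint.integrableOn
        · exact ((integrable_const _).add (integrable_pos_part u t)).integrableOn
        · intro x
          simp only
          have := le_max_left (⟪u, x⟫ - t) 0
          linarith
    _ = t * γ.real A + ∫ x in A, max (⟪u, x⟫ - t) 0 ∂γ := by
        rw [integral_add (integrable_const _) (integrable_pos_part u t).integrableOn]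
        simp
        ring
    _ ≤ t * γ.real A + ∫ x, max (⟪u, x⟫ - t) 0 ∂γ := by
        have := setIntegral_le_integral (s := A) (integrable_pos_part u t)
          (Filter.Eventually.of_forall fun x => le_max_right _ _)
        linarith
    _ = t * γ.real A + F t := by rw [integral_pos_part u hu1]

theorem F107 : F 1.07 ≤ 0.073023 := by
  obtain ⟨k1, k2⟩ := kappa_bounds
  have h := F_le1 1.07 (by norm_num)
  set κ := (√(2 * π))⁻¹ with hκ
  norm_num at h ⊢
  linarith

theorem c_lower : (0.358098 : ℝ) ≤ 9 / (8 * π) := by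
  have h2 := Real.pi_lt_d6
  rw [le_div_iff₀ (by positivity)]
  linarith

/-- cells of measure at most `1/7` -/
theorem cell_small (A : Set E) (ha : (stdGaussian E).real A ≤ 1 / 7) :
    ‖∫ x in A, x ∂(stdGaussian E)‖ ^ 2 ≤ 9 / (8 * π) * (stdGaussian E).real A := by
  have hline := line_bound A
  set a := (stdGaussian E).real A with ha'
  set ζ := ‖∫ x in A, x ∂(stdGaussian E)‖ with hζ
  have ha0 : 0 ≤ a := measureReal_nonneg
  have hζ0 : 0 ≤ ζ := norm_nonneg _
  have hc := c_lower
  have key : ζ ^ 2 ≤ 0.358098 * a := by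
    rcases le_total ζ 0.12 with h | h
    · rcases hζ0.eq_or_lt with h0 | h0
      · rw [← h0]
        calc (0:ℝ) ^ 2 = 0 := by norm_num
          _ ≤ 0.358098 * a := by positivity
      · obtain ⟨t, ht⟩ : ∃ t : ℝ, t = 0.179 / ζ := ⟨_, rfl⟩
        have ht1 : 1.49 ≤ t := by
          rw [ht, le_div_iff₀ h0]
          linarith
        have hb := hline t (by linarith)
        have hF := F_le2 t (by linarith)
        obtain ⟨k1, k2⟩ := kappa_bounds
        have hpos : 0 < 4 * (t - 1 / 2) := by linarith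
        have hF2 : F t ≤ 0.0895 / t := by
          refine hF.trans ?_
          rw [div_le_div_iff₀ hpos (by linarith)]
          nlinarith
        have e : 0.0895 / t = ζ / 2 := by
          rw [ht]
          field_simp
          ring
        have h5 : ζ / 2 ≤ t * a := by linarith
        rw [ht, div_mul_eq_mul_div, le_div_iff₀ h0] at h5
        nlinarith
    · have hb := hline 1.07 (by norm_num)
      have hF := F107
      have hz1 : ζ ≤ 0.225881 := by linarith
      nlinarith [mul_nonneg (sub_nonneg.2 h) (sub_nonneg.2 hz1)]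
  calc ζ ^ 2 ≤ 0.358098 * a := key
    _ ≤ 9 / (8 * π) * a := mul_le_mul_of_nonneg_right hc ha0

/-- every set -/
theorem cell_any (A : Set E) : ‖∫ x in A, x ∂(stdGaussian E)‖ ^ 2 ≤ 1 / (2 * π) := by
  have hb := line_bound A 0 le_rfl
  have hF : F 0 ≤ (√(2 * π))⁻¹ := by
    calc F 0 ≤ _ := F_le1 0 le_rfl
      _ = (√(2 * π))⁻¹ := by ring
  have h1 : ‖∫ x in A, x ∂(stdGaussian E)‖ ≤ (√(2 * π))⁻¹ := by
    rw [zero_mul, zero_add] at hb
    exact hb.trans hF
  calc _ ≤ ((√(2 * π))⁻¹) ^ 2 := pow_le_pow_left₀ (norm_nonneg _) h1 2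
    _ = 1 / (2 * π) := by
      rw [inv_pow, Real.sq_sqrt (by positivity), one_div]

/-- cells of measure at least `4/9` -/
theorem cell_large (A : Set E) (ha : 4 / 9 ≤ (stdGaussian E).real A) :
    ‖∫ x in A, x ∂(stdGaussian E)‖ ^ 2 ≤ 9 / (8 * π) * (stdGaussian E).real A := by
  refine (cell_any A).trans ?_
  have hpi := Real.pi_pos
  have e : 1 / (2 * π) = 9 / (8 * π) * (4 / 9) := by
    field_simp
    ring
  rw [e]
  exact mul_le_mul_of_nonneg_left ha (by positivity)

theorem sum_real_le (k : ℕ) (A : Fin k → Set E) (hA : ∀ i, MeasurableSet (A i))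
    (hdisj : Pairwise (fun i j => Disjoint (A i) (A j))) :
    ∑ i, (stdGaussian E).real (A i) ≤ 1 := by
  rw [← measureReal_biUnion_finset (fun i _ j _ hij => hdisj hij) (fun i _ => hA i)]
  exact measureReal_le_one

theorem part_two (k : ℕ) (A : Fin k → Set E) (hA : ∀ i, MeasurableSet (A i))
    (hdisj : Pairwise (fun i j => Disjoint (A i) (A j)))
    (h : ∀ i, (stdGaussian E).real (A i) ≤ 1 / 7 ∨ 4 / 9 ≤ (stdGaussian E).real (A i)) :
    ∑ i, ‖∫ x in A i, x ∂(stdGaussian E)‖ ^ 2 ≤ 9 / (8 * π) := by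
  have hsum := sum_real_le k A hA hdisj
  have h1 := Finset.sum_le_sum (fun i (_ : i ∈ Finset.univ) =>
    (h i).elim (cell_small (A i)) (cell_large (A i)))
  rw [← Finset.mul_sum] at h1
  have hpos : 0 ≤ 9 / (8 * π) := by positivity
  calc _ ≤ 9 / (8 * π) * ∑ i, (stdGaussian E).real (A i) := h1
    _ ≤ 9 / (8 * π) * 1 := mul_le_mul_of_nonneg_left hsum hpos
    _ = _ := mul_one _

theorem part_three (k : ℕ) (A : Fin k → Set E) (hA : ∀ i, MeasurableSet (A i))
    (hdisj : Pairwise (fun i j => Disjoint (A i) (A j)))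
    (h : ∃ i, 0.51 ≤ (stdGaussian E).real (A i)) :
    ∑ i, ‖∫ x in A i, x ∂(stdGaussian E)‖ ^ 2 ≤ 9 / (8 * π) := by
  obtain ⟨i0, hi0⟩ := h
  have hsum := sum_real_le k A hA hdisj
  rw [← Finset.add_sum_erase _ _ (Finset.mem_univ i0)] at hsum ⊢
  have h1 := Finset.sum_le_sum (fun i (_ : i ∈ Finset.univ.erase i0) =>
    single 0.10125 (by norm_num) key (A i))
  rw [← Finset.mul_sum] at h1
  have h2 := cell_any (A i0)
  have hpi := Real.pi_pos
  have h3 : 1 / (2 * π) + 0.19845 ≤ 9 / (8 * π) := by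
    have e : 9 / (8 * π) = 1 / (2 * π) + 5 / (8 * π) := by
      field_simp
      ring
    have h4 : (0.19845 : ℝ) ≤ 5 / (8 * π) := by
      rw [le_div_iff₀ (by positivity)]
      have := Real.pi_lt_d6
      linarith
    linarith
  linarith

/-- With `γ_d` the standard Gaussian measure on `ℝ^d` and `z(A) = ∫_A x dγ_d`:
(1) `|z(A)|^2 ≤ (9/(8π)) γ_d(A)` for every set `A` with `γ_d(A) ≤ 1/7` or `γ_d(A) ≥ 4/9`;
(2) the propeller inequality holds for every family of pairwise disjoint measurable sets each of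
measure `≤ 1/7` or `≥ 4/9`;
(3) it holds for every such family having a member of measure `≥ 0.51`;
(4) in general the sum is at most `0.405`. -/
theorem result :
    (∀ (d : ℕ) (A : Set (EuclideanSpace ℝ (Fin d))),
      ((stdGaussian (EuclideanSpace ℝ (Fin d))).real A ≤ 1 / 7 ∨
        4 / 9 ≤ (stdGaussian (EuclideanSpace ℝ (Fin d))).real A) →
      ‖∫ x in A, x ∂(stdGaussian (EuclideanSpace ℝ (Fin d)))‖ ^ 2 ≤
        9 / (8 * π) * (stdGaussian (EuclideanSpace ℝ (Fin d))).real A) ∧
    (∀ (d k : ℕ) (A : Fin k → Set (EuclideanSpace ℝ (Fin d))),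
      (∀ i, MeasurableSet (A i)) → Pairwise (fun i j => Disjoint (A i) (A j)) →
      (∀ i, (stdGaussian (EuclideanSpace ℝ (Fin d))).real (A i) ≤ 1 / 7 ∨
        4 / 9 ≤ (stdGaussian (EuclideanSpace ℝ (Fin d))).real (A i)) →
      ∑ i, ‖∫ x in A i, x ∂(stdGaussian (EuclideanSpace ℝ (Fin d)))‖ ^ 2 ≤ 9 / (8 * π)) ∧
    (∀ (d k : ℕ) (A : Fin k → Set (EuclideanSpace ℝ (Fin d))),
      (∀ i, MeasurableSet (A i)) → Pairwise (fun i j => Disjoint (A i) (A j)) →
      (∃ i, 0.51 ≤ (stdGaussian (EuclideanSpace ℝ (Fin d))).real (A i)) →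
      ∑ i, ‖∫ x in A i, x ∂(stdGaussian (EuclideanSpace ℝ (Fin d)))‖ ^ 2 ≤ 9 / (8 * π)) ∧
    (∀ (d k : ℕ) (A : Fin k → Set (EuclideanSpace ℝ (Fin d))),
      (∀ i, MeasurableSet (A i)) → Pairwise (fun i j => Disjoint (A i) (A j)) →
      ∑ i, ‖∫ x in A i, x ∂(stdGaussian (EuclideanSpace ℝ (Fin d)))‖ ^ 2 ≤ 0.405) :=
  ⟨fun _ A h => h.elim (cell_small A) (cell_large A),
    fun _ k A hA hdisj h => part_two k A hA hdisj h,
    fun _ k A hA hdisj h => part_three k A hA hdisj h,
    LevelOneSharp.result.2.2.2⟩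

end Vale.Agent.Results.P226.A_Shape
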