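import Mathlib
import Vale.Agent.Lib.P226.LevelOne

namespace Vale.Agent.Results.P226.SmallCells

open MeasureTheory ProbabilityTheory

/-- The propeller inequality holds, in every dimension `d` and for every number `k` of cells, for
all measurable partitions (more generally, all families of pairwise disjoint measurable sets) in
which every cell has standard Gaussian measure at most `1 / 16`; the sum of the squared norms of
the Gaussian first moments is then even at most `log 2 / 2`, which is less than `9 / (8 π)`. -/
theorem result (d k : ℕ) (A : Fin k → Set (EuclideanSpace ℝ (Fin d)))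
    (hmeas : ∀ i, MeasurableSet (A i)) (hdisj : Pairwise (Function.onFun Disjoint A))
    (hsmall : ∀ i, (stdGaussian (EuclideanSpace ℝ (Fin d))).real (A i) ≤ 1 / 16) :
    ∑ i, ‖∫ x in A i, x ∂(stdGaussian (EuclideanSpace ℝ (Fin d)))‖ ^ 2 ≤ Real.log 2 / 2 ∧
      Real.log 2 / 2 < 9 / (8 * Real.pi) :=
  ⟨Vale.Agent.Lib.P226.sum_norm_sq_le A hmeas hdisj hsmall, Vale.Agent.Lib.P226.log_two_half_lt⟩

end Vale.Agent.Results.P226.SmallCells
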