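import Vale.Agent.Lib.P226.Entropy

open MeasureTheory ProbabilityTheory
open scoped RealInnerProductSpace ENNReal NNReal

namespace Vale.Agent.Results.P226.SmallCells16

open Vale.Agent.Lib.P226

/-- `2 a (-log a) ≤ 2 a₀ (-log a₀)` for `0 < a ≤ a₀ ≤ 1/e`. -/
lemma aux_mono {a a0 : ℝ} (ha : 0 < a) (h : a ≤ a0) (h0 : 1 ≤ - Real.log a0) :
    a * (- Real.log a) ≤ a0 * (- Real.log a0) := by
  have ha0 : 0 < a0 := lt_of_lt_of_le ha h
  have h1 : Real.log (a0 / a) ≤ a0 / a - 1 := Real.log_le_sub_one_of_pos (by positivity)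
  rw [Real.log_div ha0.ne' ha.ne'] at h1
  have h2 : a * (- Real.log a) ≤ a * (- Real.log a0) + a * (a0 / a - 1) := by
    have : - Real.log a ≤ - Real.log a0 + (a0 / a - 1) := by linarith
    calc a * (- Real.log a) ≤ a * (- Real.log a0 + (a0 / a - 1)) :=
          mul_le_mul_of_nonneg_left this ha.le
      _ = _ := by ring
  have h3 : a * (a0 / a - 1) = a0 - a := by field_simp
  rw [h3] at h2
  nlinarith

/-- **Propeller inequality for partitions into small cells.**  For all `d`, `k`, every family of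
`k` pairwise disjoint measurable subsets of `ℝ^d`, each of standard Gaussian measure at most
`1/16`, satisfies `∑ ‖∫_{A_i} x dγ_d‖² ≤ 9/(8π)`. -/
theorem result (d k : ℕ) (A : Fin k → Set (EuclideanSpace ℝ (Fin d)))
    (hmeas : ∀ i, MeasurableSet (A i))
    (hdisj : Pairwise (Function.onFun Disjoint A))
    (hsmall : ∀ i, stdGaussian (EuclideanSpace ℝ (Fin d)) (A i) ≤ 1 / 16) :
    ∑ i, ‖∫ x in A i, x ∂(stdGaussian (EuclideanSpace ℝ (Fin d)))‖ ^ 2
      ≤ 9 / (8 * Real.pi) := by
  set μ := stdGaussian (EuclideanSpace ℝ (Fin d)) with hμ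
  have hlog16 : Real.log (1 / 16 : ℝ) = - (4 * Real.log 2) := by
    rw [one_div, Real.log_inv]
    have : (16 : ℝ) = 2 ^ 4 := by norm_num
    rw [this, Real.log_pow]; norm_num
  have hl2 : 0.6931471803 < Real.log 2 := Real.log_two_gt_d9
  have hl2' : Real.log 2 < 0.6931471808 := Real.log_two_lt_d9
  have hcell : ∀ i, ‖∫ x in A i, x ∂μ‖ ^ 2 ≤ μ.real (A i) * (Real.log 2 / 2) := by
    intro i
    have hle : μ.real (A i) ≤ 1 / 16 := by
      have := ENNReal.toReal_mono (by norm_num) (hsmall i)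
      simpa [Measure.real] using this
    rcases (measureReal_nonneg : 0 ≤ μ.real (A i)).eq_or_lt with h0 | hpos
    · have hz : μ (A i) = 0 := by
        have := h0.symm
        rwa [Measure.real, ENNReal.toReal_eq_zero_iff, or_iff_left (measure_ne_top _ _)] at this
      have : ∫ x in A i, x ∂μ = 0 := by
        rw [Measure.restrict_eq_zero.mpr hz]; simp
      rw [this, ← h0]; simp
    · have h1 := norm_sq_moment_le (E := EuclideanSpace ℝ (Fin d)) (A i) hpos
      have h2 := aux_mono hpos hle (by rw [hlog16]; linarith)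
      rw [hlog16] at h2
      calc ‖∫ x in A i, x ∂μ‖ ^ 2 ≤ 2 * μ.real (A i) ^ 2 * (- Real.log (μ.real (A i))) := h1
        _ = μ.real (A i) * (2 * (μ.real (A i) * (- Real.log (μ.real (A i))))) := by ring
        _ ≤ μ.real (A i) * (2 * (1 / 16 * (- -(4 * Real.log 2)))) := by
            apply mul_le_mul_of_nonneg_left _ hpos.le; linarith
        _ = μ.real (A i) * (Real.log 2 / 2) := by ring
  have hsum : ∑ i, μ.real (A i) ≤ 1 := by
    have h1 : μ.real (⋃ i, A i) = ∑ i, μ.real (A i) :=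
      measureReal_iUnion_fintype hdisj hmeas
    rw [← h1]
    exact measureReal_le_one
  have hpi : Real.pi < 3.1416 := Real.pi_lt_d4
  calc ∑ i, ‖∫ x in A i, x ∂μ‖ ^ 2 ≤ ∑ i, μ.real (A i) * (Real.log 2 / 2) :=
        Finset.sum_le_sum fun i _ => hcell i
    _ = (∑ i, μ.real (A i)) * (Real.log 2 / 2) := by rw [Finset.sum_mul]
    _ ≤ 1 * (Real.log 2 / 2) := by
        apply mul_le_mul_of_nonneg_right hsum; linarith
    _ ≤ 9 / (8 * Real.pi) := by
        rw [le_div_iff₀ (by positivity)]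
        nlinarith [Real.pi_pos]

end Vale.Agent.Results.P226.SmallCells16
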