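import Mathlib

/-!
# P226 (Gaussian propeller conjecture): the universal bound `M(d,k) ≤ 1/2`

For all `d`, `k` and all pairwise disjoint measurable `A_1, ..., A_k ⊆ ℝ^d`,
`∑ |∫_{A_i} x dγ_d|² ≤ 1/2`.
-/

open MeasureTheory ProbabilityTheory
open scoped RealInnerProductSpace

namespace Vale.Agent.Results.P226.UniversalHalf

variable {E : Type*} [NormedAddCommGroup E] [InnerProductSpace ℝ E] [FiniteDimensional ℝ E]
  [MeasurableSpace E] [BorelSpace E]

/-- second moment of a linear functional -/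
theorem integral_inner_sq (z : E) : ∫ x, (⟪z, x⟫) ^ 2 ∂(stdGaussian E) = ‖z‖ ^ 2 := by
  have h1 := variance_dual_stdGaussian (E := E) (innerSL ℝ z)
  rw [variance_of_integral_eq_zero (by fun_prop) (integral_strongDual_stdGaussian _)] at h1
  simpa using h1

theorem integrable_inner_sq (z : E) : Integrable (fun x => (⟪z, x⟫) ^ 2) (stdGaussian E) := by
  have := (IsGaussian.memLp_dual (stdGaussian E) (innerSL ℝ z) 2 (by norm_num)).integrable_sq
  simpa using this

theorem integral_comp_neg (f : E → ℝ) :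
    ∫ x, f (-x) ∂(stdGaussian E) = ∫ x, f x ∂(stdGaussian E) := by
  have h := stdGaussian_map (E := E) (F := E) (LinearIsometryEquiv.neg ℝ)
  conv_rhs => rw [← h]
  exact ((LinearIsometryEquiv.neg ℝ (E := E)).toHomeomorph.measurableEmbedding.integral_map f).symm

theorem integrable_pos_sq (z : E) :
    Integrable (fun x => (max ⟪z, x⟫ 0) ^ 2) (stdGaussian E) := by
  refine (integrable_inner_sq z).mono' (by fun_prop) (Filter.Eventually.of_forall fun x => ?_)
  rw [Real.norm_eq_abs, abs_of_nonneg (by positivity)]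
  rcases le_total ⟪z, x⟫ 0 with h | h
  · rw [max_eq_right h]; nlinarith [sq_nonneg ⟪z, x⟫]
  · rw [max_eq_left h]

theorem integral_pos_sq (z : E) :
    ∫ x, (max ⟪z, x⟫ 0) ^ 2 ∂(stdGaussian E) = ‖z‖ ^ 2 / 2 := by
  have h1 : ∫ x, (max ⟪z, -x⟫ 0) ^ 2 ∂(stdGaussian E) = ∫ x, (max ⟪z, x⟫ 0) ^ 2 ∂(stdGaussian E) :=
    integral_comp_neg (fun x => (max ⟪z, x⟫ 0) ^ 2)
  have hint2 : Integrable (fun x => (max ⟪z, -x⟫ 0) ^ 2) (stdGaussian E) := by
    have := integrable_pos_sq (-z)
    simpa [inner_neg_left, inner_neg_right] using this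
  have h2 : ∫ x, ((max ⟪z, x⟫ 0) ^ 2 + (max ⟪z, -x⟫ 0) ^ 2) ∂(stdGaussian E) = ‖z‖ ^ 2 := by
    rw [← integral_inner_sq z]
    congr 1
    funext x
    rw [inner_neg_right]
    rcases le_total ⟪z, x⟫ 0 with h | h
    · rw [max_eq_right h, max_eq_left (by linarith)]; ring
    · rw [max_eq_left h, max_eq_right (by linarith)]; ring
  rw [integral_add (integrable_pos_sq z) hint2, h1] at h2
  linarith

theorem main (k : ℕ) (A : Fin k → Set E) (hA : ∀ i, MeasurableSet (A i))
    (hdisj : Pairwise (fun i j => Disjoint (A i) (A j))) :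
    ∑ i, ‖∫ x in A i, x ∂(stdGaussian E)‖ ^ 2 ≤ 1 / 2 := by
  set γ := stdGaussian E with hγ
  have hid : Integrable (fun x : E => x) γ := IsGaussian.integrable_id
  have hcell : ∀ i, ‖∫ x in A i, x ∂γ‖ ^ 2 ≤ γ.real (A i) / 4 + ‖∫ x in A i, x ∂γ‖ ^ 2 / 2 := by
    intro i
    set z := ∫ x in A i, x ∂γ with hz
    have h1 : ‖z‖ ^ 2 = ∫ x in A i, ⟪z, x⟫ ∂γ := by
      rw [integral_inner hid.integrableOn z, ← hz, real_inner_self_eq_norm_sq]
    have hint : Integrable (fun x => ⟪z, x⟫) γ := by
      have := IsGaussian.integrable_dual γ (innerSL ℝ z)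
      simpa using this
    calc ‖z‖ ^ 2 = ∫ x in A i, ⟪z, x⟫ ∂γ := h1
      _ ≤ ∫ x in A i, (1 / 4 + (max ⟪z, x⟫ 0) ^ 2) ∂γ := by
          apply integral_mono hint.integrableOn
          · exact ((integrable_const _).add (integrable_pos_sq z)).integrableOn
          · intro x
            simp only
            rcases le_total ⟪z, x⟫ 0 with h | h
            · rw [max_eq_right h]; linarith
            · rw [max_eq_left h]; nlinarith [sq_nonneg (⟪z, x⟫ - 1 / 2)]
      _ = γ.real (A i) / 4 + ∫ x in A i, (max ⟪z, x⟫ 0) ^ 2 ∂γ := by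
          rw [integral_add (integrable_const _) (integrable_pos_sq z).integrableOn]
          simp
          ring
      _ ≤ γ.real (A i) / 4 + ∫ x, (max ⟪z, x⟫ 0) ^ 2 ∂γ := by
          have := setIntegral_le_integral (s := A i) (integrable_pos_sq z)
            (Filter.Eventually.of_forall fun x => by positivity)
          linarith
      _ = γ.real (A i) / 4 + ‖z‖ ^ 2 / 2 := by rw [integral_pos_sq]
  have hsum : ∑ i, γ.real (A i) ≤ 1 := by
    rw [← measureReal_biUnion_finset (fun i _ j _ hij => hdisj hij) (fun i _ => hA i)]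
    exact measureReal_le_one
  have := Finset.sum_le_sum (fun i (_ : i ∈ Finset.univ) => hcell i)
  rw [Finset.sum_add_distrib, ← Finset.sum_div, ← Finset.sum_div] at this
  linarith



/-- For every dimension `d`, every `k` and every family of `k` pairwise disjoint measurable subsets
of `ℝ^d` (in particular every measurable partition), the sum of the squared norms of the Gaussian
first moments is at most `1/2`. -/
theorem result (d k : ℕ) (A : Fin k → Set (EuclideanSpace ℝ (Fin d)))
    (hA : ∀ i, MeasurableSet (A i)) (hdisj : Pairwise (fun i j => Disjoint (A i) (A j))) :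
    ∑ i, ‖∫ x in A i, x ∂(stdGaussian (EuclideanSpace ℝ (Fin d)))‖ ^ 2 ≤ 1 / 2 :=
  main k A hA hdisj

end Vale.Agent.Results.P226.UniversalHalf
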